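import Vale.Agent.P251EJ.DefsM
import Vale.Agent.P251CY.Main

/-!
# P251EJ: from the goal to the compact statement layer
-/

open CategoryTheory MonoidalCategory Pretriangulated

namespace Vale.Agent.P251EJ73

open Vale.Agent.P251.St (SHCat Susp)
open Vale.Agent.P251.St.SHCat Vale.Agent.P251CY

/-- The Johnson-Wilson spectra exist, in the compact language. -/
theorem exists_jw (h : ∀ (p : ℕ) [Fact p.Prime] (n : ℕ), P251EJ.Goal p (n + 1)) (T : SHCat)
    (S : Susp T) (p n : ℕ) (hp : p.Prime) (hn : 1 ≤ n) :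
    ∃ (E : RingSp T) (o : Oriented S E) (φ : GHom S p E), IsJW p n o φ := by
  have : Fact p.Prime := ⟨hp⟩
  obtain ⟨k, rfl⟩ : ∃ k, n = k + 1 := ⟨n - 1, by omega⟩
  obtain ⟨E, o, φ, H⟩ := h p k T S
  exact ⟨RingSp.ofOld E, Oriented.ofOld o, GHom.ofOld φ, (isJW_iff _ _ _ _).2 H⟩

/-- The Moore spectrum, the four localizations and the induced map exist. -/
theorem exists_diag (T : SHCat) (p : ℕ) (E K : T.C) :
    ∃ (M : T.C) (a : Hom T.one M) (b : Hom M (sus T.one)) (Sp X Z Y : T.C) (c : Hom T.one Sp)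
      (l : Hom Sp X) (z : Hom Sp Z) (y : Hom Z Y) (i : Hom X Y),
      Dist (zmul p (ident T.one)) a b ∧ IsLoc M c ∧ IsLoc E l ∧ IsLoc K z ∧ IsLoc E y ∧
        comp l i = comp z y := by
  obtain ⟨M, a, b, hM⟩ := distinguished_cocone_triangle (zmul p (ident T.one))
  obtain ⟨Sp, c, hc⟩ := P251.St.exists_isLoc T M T.one
  obtain ⟨X, l, hl⟩ := P251.St.exists_isLoc T E Sp
  obtain ⟨Z, z, hz⟩ := P251.St.exists_isLoc T K Sp
  obtain ⟨Y, y, hy⟩ := P251.St.exists_isLoc T E Z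
  obtain ⟨i, hi⟩ := (((P251.St.isLoc_iff E y).1 hy).2.precomp_bijective l
    ((P251.St.isLoc_iff E l).1 hl).1).2 (comp z y)
  exact ⟨M, a, b, Sp, X, Z, Y, c, l, z, y, i, hM, hc, hl, hz, hy, hi⟩

end Vale.Agent.P251EJ73
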