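import Vale.Agent.P251EJ.PlugS
import Vale.Agent.P251EJ19.PlugA
import Vale.Agent.P251EJ78.OddB
import Vale.Agent.P251EJ78.EvenB
import Vale.Agent.P251EJ35.HS
import Vale.Agent.P251EJ18.Tra
import Vale.Agent.P251EJ92.Idem
import Vale.Agent.P251EJ32.Out
import Vale.Agent.P251EJ70.Asm

/-!
# P251EJ: the Johnson-Wilson spectra exist (assembly of all blocks)
-/

namespace Vale.Agent.P251EJ73

theorem goal (p : ℕ) [Fact p.Prime] (n : ℕ) : P251EJ.Goal p (n + 1) :=
  P251EJ70.asmM p n (fun _ S => P251EJ.serre S.toSpaceFunctor) (fun T => P251EJ78.oddB T.C)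
    (fun T => P251EJ78.evenB T.C) (fun T => P251EJ35.hs T.C) (fun T => P251EJ18.traG T.C)
    (fun T => P251EJ92.idemG T.C) P251EJ32.outJW (P251EJ19.blockA p n)

end Vale.Agent.P251EJ73
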